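import Vale.Agent.P242W.Rows

/-!
# P242W, row CUT: from balls and truncations to the whole space
-/

set_option linter.all false

open MeasureTheory Set Filter Topology
open scoped ENNReal NNReal

universe u

namespace Vale.Agent.P242W63

open Vale.Agent.P242W Vale.Agent.P233 Vale.Agent.P233.Met

variable {X : Type u} [MetricSpace X] [MeasurableSpace X] {m : Measure X}

omit [MetricSpace X] in
theorem mul_res {B : Set X} (hB : MeasurableSet B) {c w : X → ℝ} (hc : Measurable c)
    (h1 : ∀ x, |c x| ≤ 1) (h0 : ∀ x, x ∉ B → c x = 0) (hw : MemLp w 2 (m.restrict B)) :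
    MemLp (fun x => c x * w x) 2 m ∧
      eLpNorm (fun x => c x * w x) 2 m ≤ eLpNorm w 2 (m.restrict B) := by
  have e : (fun x => c x * w x) = B.indicator fun x => c x * w x := by
    funext x
    by_cases hx : x ∈ B
    · simp [hx]
    · simp [hx, h0 x hx]
  have hle : ∀ x, ‖c x * w x‖ ≤ ‖w x‖ := fun x => by
    rw [norm_mul, Real.norm_eq_abs (c x)]
    exact mul_le_of_le_one_left (norm_nonneg _) (h1 x)
  constructor
  · rw [e, memLp_indicator_iff_restrict hB]
    exact hw.mono (hc.aestronglyMeasurable.mul hw.1) (Eventually.of_forall hle)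
  · rw [e, eLpNorm_indicator_eq_eLpNorm_restrict hB]
    exact eLpNorm_mono hle

/-- the indicator function of the annulus -/
noncomputable def ann (x₀ : X) (R : ℝ) : X → ℝ :=
  (Metric.ball x₀ (R + 2) \ Metric.ball x₀ R).indicator fun _ => 1

theorem ann_nonneg (x₀ : X) (R : ℝ) (x : X) : 0 ≤ ann x₀ R x :=
  indicator_nonneg (fun _ _ => zero_le_one) x

theorem ann_abs (x₀ : X) (R : ℝ) (x : X) : |ann x₀ R x| ≤ 1 := by
  unfold ann
  by_cases h : x ∈ Metric.ball x₀ (R + 2) \ Metric.ball x₀ R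
  · simp [indicator_of_mem h]
  · simp [indicator_of_notMem h]

theorem cut_abs (x₀ : X) (R : ℝ) (x : X) : |cutoff x₀ R x| ≤ 1 :=
  abs_le.2 ⟨by linarith [cutoff_nonneg x₀ R x], cutoff_le_one x₀ R x⟩

theorem cut_off {x₀ : X} {R : ℝ} {x : X} (h : x ∉ Metric.ball x₀ (R + 2)) :
    ∀ᶠ y in 𝓝 x, cutoff x₀ R y = 0 := by
  have hx2 : R + 1 < dist x x₀ := by
    rw [Metric.mem_ball, not_lt] at h; linarith
  have h1 : ∀ᶠ y in 𝓝 x, R + 1 < dist y x₀ :=
    (continuous_id.dist continuous_const).continuousAt.eventually_const_lt hx2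
  filter_upwards [h1] with y hy
  exact cutoff_eq_zero (by rw [Metric.mem_ball, not_lt]; exact hy.le)

theorem cut_lipBd (x₀ : X) (R : ℝ) {x : X} (hx : x ∈ Metric.ball x₀ (R + 2)) :
    LipBd (cutoff x₀ R) x (ann x₀ R x) := by
  by_cases h : x ∈ Metric.ball x₀ R
  · refine (lipBd_zero_of_eventually ?_).mono (ann_nonneg _ _ _)
    filter_upwards [Metric.isOpen_ball.mem_nhds h] with y hy
    rw [cutoff_eq_one (Metric.mem_ball.1 hy).le, cutoff_eq_one (Metric.mem_ball.1 h).le]
  · have : ann x₀ R x = 1 := indicator_of_mem (show x ∈ _ \ _ from ⟨hx, h⟩) _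
    rw [this]
    simpa using LipBd.of_lipschitz (cutoff_lip x₀ R) x

variable [BorelSpace X]

theorem ann_meas (x₀ : X) (R : ℝ) : Measurable (ann x₀ R) :=
  measurable_const.indicator
    (Metric.isOpen_ball.measurableSet.diff Metric.isOpen_ball.measurableSet)

theorem cut_step (x₀ : X) (R : ℝ) {F G : X → ℝ}
    (h : RSlope (m.restrict (Metric.ball x₀ (R + 2))) F G) :
    RSlope m (fun x => cutoff x₀ R x * F x)
      (fun x => cutoff x₀ R x * G x + ann x₀ R x * |F x|) := by
  have hB : MeasurableSet (Metric.ball x₀ (R + 2)) := Metric.isOpen_ball.measurableSet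
  have c0 : ∀ x, x ∉ Metric.ball x₀ (R + 2) → cutoff x₀ R x = 0 :=
    fun x hx => (cut_off hx).self_of_nhds
  have a0 : ∀ x, x ∉ Metric.ball x₀ (R + 2) → ann x₀ R x = 0 :=
    fun x hx => indicator_of_notMem (fun h => hx h.1) _
  have mc := fun {w : X → ℝ} (hw : MemLp w 2 (m.restrict (Metric.ball x₀ (R + 2)))) =>
    mul_res hB (cutoff_lip x₀ R).continuous.measurable (cut_abs x₀ R) c0 hw
  have ma := fun {w : X → ℝ} (hw : MemLp w 2 (m.restrict (Metric.ball x₀ (R + 2)))) =>
    mul_res hB (ann_meas x₀ R) (ann_abs x₀ R) a0 hw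
  rw [rSlope_iff_eps]
  refine ⟨(mc h.1).1, (mc h.2.1).1.add (ma h.1.abs).1, fun ε hε => ?_⟩
  obtain ⟨u, g, hug, hb, h1, h2⟩ := h.exists_bdd (ε := ε / 2) (by simpa using hε)
  refine ⟨fun x => cutoff x₀ R x * u x, fun x => cutoff x₀ R x * g x + ann x₀ R x * |u x|,
    Good.mk' ?_ (mc hug.2.1).1 ((mc hug.2.2.1).1.add (ma hug.2.1.abs).1) ?_, ?_, ?_⟩
  · exact IsLip.mul ⟨1, cutoff_lip x₀ R⟩ hug.1 ⟨1, cut_abs x₀ R⟩ hb
  · filter_upwards [(ae_restrict_iff' hB).1 hug.lipBd] with x hx
    by_cases hxB : x ∈ Metric.ball x₀ (R + 2)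
    · have h3 := cutoff_nonneg x₀ R x
      have h4 := ann_nonneg x₀ R x
      have h5 := (hx hxB).1
      refine ⟨by positivity, (LipBd.mul (cutoff_lip x₀ R).continuous.continuousAt
        (cut_lipBd x₀ R hxB) (hx hxB).2).mono ?_⟩
      rw [abs_of_nonneg h3, mul_comm |u x|]
    · rw [c0 x hxB, a0 x hxB]
      refine ⟨by simp, (lipBd_zero_of_eventually ?_).mono (by simp)⟩
      filter_upwards [cut_off hxB] with y hy
      rw [hy, c0 x hxB, zero_mul, zero_mul]
  · have e : ((fun x => cutoff x₀ R x * u x) - fun x => cutoff x₀ R x * F x) =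
        fun x => cutoff x₀ R x * (u - F) x := by
      funext x; simp only [Pi.sub_apply]; ring
    rw [e]
    exact ((mc (hug.2.1.sub h.1)).2.trans h1).trans ENNReal.half_le_self
  · have e : ((fun x => cutoff x₀ R x * g x + ann x₀ R x * |u x|) -
        fun x => cutoff x₀ R x * G x + ann x₀ R x * |F x|) =
        (fun x => cutoff x₀ R x * (g - G) x) + fun x => ann x₀ R x * (|u| - |F|) x := by
      funext x; simp only [Pi.sub_apply, Pi.add_apply, Pi.abs_apply]; ring
    rw [e]
    have p1 := mc (hug.2.2.1.sub h.2.1)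
    have p2 := ma (hug.2.1.abs.sub h.1.abs)
    have p3 : eLpNorm (|u| - |F|) 2 (m.restrict (Metric.ball x₀ (R + 2))) ≤
        eLpNorm (u - F) 2 (m.restrict (Metric.ball x₀ (R + 2))) :=
      eLpNorm_mono fun x => by
        simpa [Real.norm_eq_abs] using abs_abs_sub_abs_le_abs_sub (u x) (F x)
    refine (eLpNorm_add_le p1.1.1 p2.1.1 (by norm_num)).trans ?_
    calc _ ≤ ε / 2 + ε / 2 := add_le_add (p1.2.trans h2) (p2.2.trans (p3.trans h1))
      _ = ε := ENNReal.add_halves ε

theorem cut : CUT X := by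
  intro m f G hf hG h
  rcases isEmpty_or_nonempty X with hX | ⟨⟨x₀⟩⟩
  · rw [show f = 0 from Subsingleton.elim _ _, show G = 0 from Subsingleton.elim _ _]
    exact rSlope_zero
  have hs := fun n : ℕ => cut_step x₀ (n : ℝ)
    (h x₀ ((n : ℝ) + 2) ((n : ℝ) + 1) (by positivity) (by positivity))
  have hT : ∀ (n : ℕ) (x : X), |max (min (f x) ((n : ℝ) + 1)) (-((n : ℝ) + 1))| ≤ |f x| :=
    fun n x => abs_trunc_le_abs (n := (n : ℝ) + 1) (by positivity) (f x)
  refine RSlope.of_tendsto hf hG hs ?_ ?_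
  · refine tendsto_eLpNorm_zero_of_dominated (B := fun x => 2 * |f x|) (hf.abs.const_mul 2)
      (fun n => (hs n).1.1.sub hf.1) (fun n => Eventually.of_forall fun x => ?_)
      (Eventually.of_forall fun x => ?_)
    · simp only [Pi.sub_apply]
      refine (abs_sub _ _).trans ?_
      rw [abs_mul]
      have := mul_le_mul (cut_abs x₀ n x) (hT n x) (abs_nonneg _) zero_le_one
      linarith
    · obtain ⟨N, hN⟩ := exists_nat_ge (max (dist x x₀) |f x|)
      refine tendsto_const_nhds.congr' ?_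
      filter_upwards [eventually_ge_atTop N] with k hk
      have hk' : (N : ℝ) ≤ k := by exact_mod_cast hk
      have h1 : dist x x₀ ≤ k := ((le_max_left _ _).trans hN).trans hk'
      have h2 : |f x| ≤ (k : ℝ) + 1 := by linarith [(le_max_right _ _).trans hN]
      have h3 := trunc_of_abs_le h2
      unfold Met.trunc at h3
      simp only [Pi.sub_apply]
      rw [cutoff_eq_one h1, h3, one_mul, sub_self]
  · refine tendsto_eLpNorm_zero_of_dominated (B := fun x => 2 * |G x| + |f x|)
      ((hG.abs.const_mul 2).add hf.abs)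
      (fun n => (hs n).2.1.1.sub hG.1) (fun n => Eventually.of_forall fun x => ?_)
      (Eventually.of_forall fun x => ?_)
    · simp only [Pi.sub_apply]
      refine (abs_sub _ _).trans ?_
      have h1 := abs_add_le (cutoff x₀ n x * G x)
        (ann x₀ n x * |max (min (f x) ((n : ℝ) + 1)) (-((n : ℝ) + 1))|)
      rw [abs_mul, abs_mul, abs_abs] at h1
      have h2 := mul_le_mul (ann_abs x₀ n x) (hT n x) (abs_nonneg _) zero_le_one
      have h3 := mul_le_of_le_one_left (abs_nonneg (G x)) (cut_abs x₀ n x)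
      linarith
    · obtain ⟨N, hN⟩ := exists_nat_gt (dist x x₀)
      refine tendsto_const_nhds.congr' ?_
      filter_upwards [eventually_ge_atTop N] with k hk
      have hk' : (N : ℝ) ≤ k := by exact_mod_cast hk
      have h1 : dist x x₀ < k := hN.trans_le hk'
      have h2 : ann x₀ k x = 0 := indicator_of_notMem (fun h => h.2 h1) _
      simp only [Pi.sub_apply]
      rw [cutoff_eq_one h1.le, h2, one_mul, zero_mul, add_zero, sub_self]

end Vale.Agent.P242W63
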